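import Vale.Agent.P144L.R.Pt

/-!
Lipschitz boundaries: rank one on average.
-/

namespace Vale.Agent.P144L.R

open Finset Matrix Vale.Agent.P144Z

theorem homR_mono {M : ℕ} [NeZero M] {A : Gauge M} {y : Tor M} {s ρ : ℕ} {Ω Ω' : ℝ}
    (h : HomR A y s ρ Ω) (hΩ : Ω ≤ Ω') : HomR A y s ρ Ω' := by
  obtain ⟨u, hu, h⟩ := h
  exact ⟨u, hu, fun φ hφ => (h φ hφ).imp fun t ht => ht.trans (mul_le_mul_of_nonneg_right
    (mul_le_mul_of_nonneg_right hΩ (Nat.cast_nonneg _)) (E3.l2sq_nonneg _ _))⟩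

theorem exists_max (ω : ℤ × ℤ → ℝ) (σ : ℕ) (y : ℤ × ℤ) :
    ∃ x, zd x y ≤ σ ∧ ∀ v, zd v y ≤ σ → ω v ≤ ω x :=
  Set.exists_max_image {v | zd v y ≤ σ} ω ((B1b.box_finite (σ + zd y 0)).subset fun v hv => by
    have h1 := GeoA.zd_tri v y 0
    have h2 : zd v y ≤ σ := hv
    show zd v 0 ≤ σ + zd y 0
    omega) ⟨y, by simp [zd]⟩

/-- The choice of the scales. -/
theorem nums {G P s : ℕ} (hG : 1 ≤ G) (hP : 8 ≤ P) (hs : G * (32 * P) ≤ s) : ∃ r m : ℕ,
    r + 5 = s / G ∧ 16 ≤ r ∧ r ≤ s ∧ 2 * (m + 1) ≤ r ∧ 1 ≤ m ∧ G * m ≤ s ∧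
      ∀ W E : ℝ, 0 ≤ W → 0 ≤ E → s * ((W + E) * (m + 1) / r ^ 2 + E / m) ≤
        16 * G * W / P + (16 * G + 4 * G * P) * E := by
  have q1 : 32 * P ≤ s / G := (Nat.le_div_iff_mul_le hG).2 (by rwa [mul_comm])
  have q2 : G * (s / G) ≤ s := Nat.mul_div_le s G
  have q3 : s < G * (s / G + 1) := Nat.lt_mul_div_succ s hG
  have q4 : s / G ≤ s := Nat.div_le_self s G
  generalize s / G = q at q1 q2 q3 q4
  have m1 : 32 ≤ q / P := (Nat.le_div_iff_mul_le (by omega)).2 q1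
  have m2 : P * (q / P) ≤ q := Nat.mul_div_le q P
  have m3 : q < P * (q / P + 1) := Nat.lt_mul_div_succ q (by omega)
  generalize q / P = m at m1 m2 m3
  have m4 : 8 * m ≤ q := (Nat.mul_le_mul_right m hP).trans m2
  obtain ⟨r, rfl⟩ : ∃ r, q = r + 5 := ⟨q - 5, by omega⟩
  refine ⟨r, m, rfl, by omega, by omega, by omega, by omega,
    (Nat.mul_le_mul_left G (by omega)).trans q2, fun W E hW hE => ?_⟩
  have G1 : (1 : ℝ) ≤ G := by exact_mod_cast hG
  have P1 : (8 : ℝ) ≤ P := by exact_mod_cast hP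
  have r1 : (16 : ℝ) ≤ r := by exact_mod_cast (by omega : 16 ≤ r)
  have m5 : (32 : ℝ) ≤ m := by exact_mod_cast m1
  have a1 : (s : ℝ) ≤ G * (2 * r) := by
    exact_mod_cast q3.le.trans (Nat.mul_le_mul_left G (by omega : r + 5 + 1 ≤ 2 * r))
  have a2 : (P : ℝ) * m ≤ 2 * r := by exact_mod_cast (by omega : P * m ≤ 2 * r)
  have a3 : (s : ℝ) ≤ G * (2 * (P * (2 * m))) := by
    have b1 : P * (m + 1) ≤ P * (2 * m) := Nat.mul_le_mul_left P (by omega)
    exact_mod_cast q3.le.trans (Nat.mul_le_mul_left G (by omega : r + 5 + 1 ≤ 2 * (P * (2 * m))))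
  have b1 : (s : ℝ) * (m + 1) / r ^ 2 ≤ 16 * G / P := by
    rw [div_le_div_iff₀ (by positivity) (by positivity)]
    have c1 : ((m : ℝ) + 1) * P ≤ 4 * r := by nlinarith
    have c2 := mul_le_mul a1 c1 (by positivity) (by positivity)
    have c3 : (0 : ℝ) ≤ G * r ^ 2 := by positivity
    linarith
  have b2 : (s : ℝ) / m ≤ 4 * G * P := by
    rw [div_le_iff₀ (by positivity)]
    linarith
  have b3 : 16 * (G : ℝ) / P ≤ 16 * G := div_le_self (by positivity) (by linarith)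
  have c1 := mul_le_mul_of_nonneg_right b1 hW
  have c2 := mul_le_mul_of_nonneg_right (b1.trans b3) hE
  have c3 := mul_le_mul_of_nonneg_right b2 hE
  have e1 : s * ((W + E) * (m + 1) / r ^ 2 + E / m) =
      (s : ℝ) * (m + 1) / r ^ 2 * W + (s : ℝ) * (m + 1) / r ^ 2 * E + s / m * E := by ring
  have e2 : 16 * G * W / P = 16 * (G : ℝ) / P * W := by ring
  rw [e1, e2]
  linarith

/-- Rank one on average. -/
theorem rkL (hMo : ModL) (hCo : ConL) (hBa : BarL) (hCa : CarL) (hBh : BhpL) (hSl : SlpL)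
    (hAp : AppL) : RkL := by
  intro N
  obtain ⟨C₀, C₁, hC₀, hC₁, hX⟩ := exists_cx
  obtain ⟨C₂, hC₂, hP⟩ := point C₀ hC₀
  obtain ⟨Cc, hCa⟩ := hCa
  obtain ⟨G, hG, hSl⟩ := hSl
  obtain ⟨Q, hQ⟩ : ∃ Q, Q = 8003 * (N + 1) + 3 := ⟨_, rfl⟩
  refine ⟨Q, by omega, fun η hη => ?_⟩
  have G1 : (1 : ℝ) ≤ G := by exact_mod_cast hG
  obtain ⟨a, a0, ha⟩ : ∃ a : ℝ, 0 < a ∧ a * (Cc * ((2 * (G + 3) + 1) ^ 2 : ℕ)) ≤ η / 2 := by
    refine ⟨η / 2 / (Cc * ((2 * (G + 3) + 1) ^ 2 : ℕ) + 1), by positivity, ?_⟩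
    rw [div_mul_eq_mul_div, div_le_iff₀ (by positivity)]
    linarith
  obtain ⟨H, hH⟩ : ∃ H : ℝ, H = C₂ * (C₁ * Q) := ⟨_, rfl⟩
  have H0 : 0 ≤ H := by rw [hH]; positivity
  obtain ⟨P, hP8, hP'⟩ : ∃ P : ℕ, 8 ≤ P ∧ 32 * H * G ^ 2 / a ≤ P :=
    ⟨max 8 _, le_max_left _ _, (Nat.le_ceil _).trans (Nat.cast_le.2 (le_max_right _ _))⟩
  have P0 : (0 : ℝ) < P := by exact_mod_cast (by omega : 0 < P)
  obtain ⟨H', hH'⟩ : ∃ H' : ℝ, H' = H * (G * (16 * G + 4 * G * P) + 1) + 1 := ⟨_, rfl⟩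
  have H1 : 0 < H' := by rw [hH']; positivity
  obtain ⟨K₁, s₁, hBh⟩ := hBh (a / 2 / H') (by positivity)
  obtain ⟨K, hK⟩ : ∃ K, K = (K₁ + Cc + 1) * (G + 3) := ⟨_, rfl⟩
  obtain ⟨e, e0, he⟩ : ∃ e : ℝ, 0 < e ∧ e * ((2 * K + 1) ^ 2 : ℕ) = η / 2 :=
    ⟨η / 2 / ((2 * K + 1) ^ 2 : ℕ), by positivity, div_mul_cancel₀ _ (by positivity)⟩
  obtain ⟨ρ₀, hAp⟩ := cx_app hAp C₀ hC₀ (e / H') (by positivity)
  have K1 : 1 ≤ K := by rw [hK]; exact Nat.mul_pos (by omega) (by omega)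
  refine ⟨K, s₁ + ρ₀ + G * G + G * (32 * P) + 50, K1,
    fun M _ R B r hB hL hR hM b s m Z hb hs hr hF hZ hm => ?_⟩
  obtain ⟨σ, hσ⟩ : ∃ σ, σ = (G + 3) * s := ⟨_, rfl⟩
  have σ1 : σ = G * s + 3 * s := by rw [hσ]; ring
  obtain ⟨T, hT⟩ : ∃ T, T = K * s := ⟨_, rfl⟩
  have T1 : T = K₁ * σ + Cc * σ + σ := by rw [hT, hK, hσ]; ring
  have hcard : Z.card ≤ (2 * K + 1) ^ 2 * m := by
    have := mut_mul hm (by omega) K b
    rwa [filter_true_of_mem fun y hy => (hZ y hy).2] at this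
  have hmσ := mut_mul hm (by omega) (G + 3)
  rw [← hσ] at hmσ
  rw [← hT] at hr hF hZ ⊢
  have x1 : (N + 1) * (8000 * T + 3) + 2 + T ≤ Q * T := by
    have : N * 1 ≤ N * T := Nat.mul_le_mul_left N (by omega)
    rw [hQ]
    nlinarith
  have x2 : N * (Q * T) ≤ r := le_trans (Nat.mul_le_mul_right _ (by omega)) hr
  have x3 : 4 * (Q * T) ≤ r := le_trans (Nat.mul_le_mul_right _ (by omega)) hr
  have x4 : N * (8000 * T + 3) + (8000 * T + 3) = (N + 1) * (8000 * T + 3) := by ring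
  have x5 : N * ((N + 1) * (8000 * T + 1)) ≤ r :=
    le_trans (Nat.mul_le_mul_left N (le_trans (Nat.mul_le_mul_left _ (by omega)) (by omega :
      (N + 1) * (8000 * T + 3) ≤ Q * T))) x2
  obtain ⟨pr, out, ν, hMd, hE, hBp⟩ := hMo M R r b hL hM
  obtain ⟨hMn, hBc⟩ := hCo pr out ν hMd
  have b0 : Bp out 0 := hBp 0 (by rw [zd_zero]; omega) (by
    rwa [neg_zero, ite_self, P144Z.G.prj_zero, add_zero])
  obtain ⟨ω, hω⟩ := hBa 1 (by norm_num) le_rfl _ ν hMn (hBc 0 b0).2 (2 * T) (by omega)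
  choose lf l1 l2 using An2.exists_fc R b
  choose X X1 X2 using exists_max ω σ
  have zl : ∀ y ∈ Z, zd (lf y) 0 ≤ T := fun y hy => by rw [l1]; exact (hZ y hy).2
  have bl : ∀ y ∈ Z, Bp out (lf y) := fun y hy => hBp _ (by have := zl y hy; omega) (by
    have := (hZ y hy).1
    rwa [← l2 y] at this)
  have ω0 : ∀ x, 0 ≤ ω x := fun x => (hω.rng x).1
  refine ⟨fun y => a * ω (X (lf y)) + e, fun y hy => ⟨by have := ω0 (X (lf y)); positivity, ?_⟩,
    ?_⟩
  · have z1 := zl y hy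
    obtain ⟨r₁, m₁, n1, n2, n3, n4, n5, n6, n7⟩ := nums hG hP8 (by omega : G * (32 * P) ≤ s)
    obtain ⟨c, c1, c2, c3⟩ := hSl out ν hMd.ou (lf y) s m₁ ω n5 n6 (by omega) (bl y hy)
      (pos_of_bar hω (by omega))
    have W0 := ω0 (X (lf y))
    beta_reduce
    generalize hW : ω (X (lf y)) = W at W0
    have hvx : R.vx b (lf y) 0 = y := by rw [vx_fc, l2]
    have T0 : (0 : ℝ) < T := by exact_mod_cast (by omega : 0 < T)
    have k := hP M R B b (8000 * T) (lf y) c s m₁ r₁ σ (Q * T) ω (C₁ / (8000 * T : ℕ)) W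
      (a / 2 / H' * W + e / H') G (by positivity) (by positivity) (by positivity) n2 n4 n5
      (by omega) (by omega)
      (fun v hv ho => c2 v (by omega) ((hE v (by
        have := GeoA.zd_tri v c 0
        have := GeoA.zd_tri c (lf y) 0
        omega)).2.1 ho)) (by omega) (by omega) ω0 (fun v hv => hW ▸ X2 _ v hv) c3
      fun φ hφ => by
        rw [hvx] at hφ ⊢
        have t1 := (hZ y hy).2
        obtain ⟨u, w, h⟩ := hX N M R B r b hB hR hb.1 (8000 * T) ((N + 1) * (8000 * T + 3))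
          (by omega) (by omega) (by omega) (by omega) x5 (by omega) hM
          (P144Z.W.flat_mono hF (by omega)) φ
          (fun t ht => hφ t (by
            have := tdist_triangle t.1 b y
            rw [tdist_comm b y] at this
            omega)) (l2sq (ball y (Q * T)) φ)
          (E3.l2sq_mono (fun x hx => by
            have h1 := tdist_triangle x b y
            have h2 := E3.mem_ball.1 hx
            rw [tdist_comm b y] at h1
            exact E3.mem_ball.2 (by omega)) φ)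
        rw [mul_div_right_comm] at h
        generalize C₁ / (8000 * T : ℕ) * l2sq (ball y (Q * T)) φ = S at h ⊢
        have S0 := h.S0
        obtain ⟨g, g1, g2⟩ := hAp M R B b (2000 * T) φ S u w
          (by rwa [show 4 * (2000 * T) = 8000 * T by ring]) (by omega) pr out ν hMd
          fun v hv => hE v (by omega)
        have g3 := abs_le_bar hω (g := g) (by rwa [show 1000 * (2 * T) = 2000 * T by ring]) S0
          fun v hv => (g2 v (by omega)).1
        obtain ⟨lam, g4, g5⟩ := hBh out ν hMd.ou (lf y) σ ω g S W (by omega) (bl y hy)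
          (pos_of_bar hω (by omega)) (har_shift g1 (by omega)) S0
          (fun v hv => g3 v (by have := GeoA.zd_tri v (lf y) 0; omega))
          fun v hv => hW ▸ X2 _ v hv
        refine ⟨u, w, lam, h, g4, fun v hv => ?_⟩
        have g6 := abs_le.1 (g2 v (by have := GeoA.zd_tri v (lf y) 0; omega)).2
        have g7 := abs_le.1 (g5 v hv)
        exact abs_le.2 ⟨by linarith, by linarith⟩
    rw [hvx] at k
    refine homR_mono k ?_
    have E0 : 0 ≤ a / 2 / H' * W + e / H' := by positivity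
    have k1 := n7 W _ W0 E0
    have k2 : H' * (a / 2 / H' * W + e / H') = a / 2 * W + e := by field_simp
    generalize a / 2 / H' * W + e / H' = E at k1 k2 E0 ⊢
    have k3 : C₂ * (C₁ / (8000 * T : ℕ) * (Q * T : ℕ)) ≤ H := by
      rw [hH]
      refine mul_le_mul_of_nonneg_left ?_ (by linarith)
      push_cast
      rw [div_mul_eq_mul_div, div_le_iff₀ (by positivity)]
      have : (0 : ℝ) ≤ C₁ * Q * T := by positivity
      linarith
    have k4 : H * (G * (16 * G * W / P)) ≤ a / 2 * W := by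
      rw [div_le_iff₀ a0] at hP'
      rw [← mul_div_assoc, ← mul_div_assoc, div_le_iff₀ P0]
      nlinarith [mul_le_mul_of_nonneg_right hP' W0]
    refine (mul_le_mul k3 (add_le_add_left (mul_le_mul_of_nonneg_left k1 (by linarith)) E)
      (by positivity) H0).trans ?_
    rw [hH'] at k2
    linarith
  · have inj : Set.InjOn lf Z := fun y _ y' _ h => by rw [← l2 y, ← l2 y', h]
    have h1 := hCa 1 (by norm_num) le_rfl _ ν _ ω hMn hω σ ((2 * (G + 3) + 1) ^ 2 * m)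
      (Z.image lf) (fun y => ω (X y)) (by omega) (by omega)
      (fun x hx => by
        obtain ⟨y, hy, rfl⟩ := mem_image.1 hx
        exact ⟨(hBc _ (bl y hy)).2, by have := zl y hy; omega, _, X1 _, le_rfl⟩)
      fun x => by
        refine le_trans ?_ (card_image_le.trans (hmσ (An2.fc R b x)) :
          (image lf (Z.filter fun y => tdist y (An2.fc R b x) ≤ σ)).card ≤ _)
        refine card_le_card fun v hv => ?_
        obtain ⟨v1, v2⟩ := mem_filter.1 hv
        obtain ⟨y, hy, rfl⟩ := mem_image.1 v1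
        refine mem_image_of_mem _ (mem_filter.2 ⟨hy, le_trans ?_ v2⟩)
        have := An2.tdist_fc R b (lf y) x
        rwa [l2] at this
    rw [sum_image inj] at h1
    rw [sum_add_distrib, ← mul_sum, sum_const, nsmul_eq_mul]
    have h2 : (Z.card : ℝ) ≤ ((2 * K + 1) ^ 2 : ℕ) * m := by exact_mod_cast hcard
    have h3 := mul_le_mul_of_nonneg_left h1 a0.le
    have h4 := mul_le_mul_of_nonneg_right ha (Nat.cast_nonneg (α := ℝ) m)
    have h5 := mul_le_mul_of_nonneg_left h2 e0.le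
    rw [← mul_assoc, he] at h5
    rw [Nat.cast_mul] at h3
    linarith

end Vale.Agent.P144L.R
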