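import Vale.Agent.P144L.Defs
import Vale.Agent.P144E.An2.Dec

/-!
Lipschitz boundaries, rank one: barriers, the pair of a homogeneous solution and its harmonic
approximation.
-/

namespace Vale.Agent.P144L.R

open Finset Matrix Vale.Agent.P144Z

/-- The multiplicity at a larger scale. -/
theorem mut_mul {M : ℕ} [NeZero M] {Z : Finset (Tor M)} {s m : ℕ} (h : MuT Z s m) (hs : 1 ≤ s)
    (n : ℕ) : MuT Z (n * s) ((2 * n + 1) ^ 2 * m) := fun x => by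
  obtain ⟨Y, h1, h2⟩ := A4b.cover_mul x n hs
  have h3 : (Z.filter fun y => tdist y x ≤ n * s) ⊆
      Y.biUnion fun z => Z.filter fun y => tdist y z ≤ s := fun y hy => by
    obtain ⟨a, b⟩ := mem_filter.1 hy
    obtain ⟨z, c, d⟩ := h2 y b
    exact mem_biUnion.2 ⟨z, c, mem_filter.2 ⟨a, d⟩⟩
  exact (card_le_card h3).trans ((card_biUnion_le_card_mul _ _ m fun z _ => h z).trans
    (Nat.mul_le_mul_right _ h1))

theorem zd_add' (c v : ℤ × ℤ) : zd (c + v) c = zd v 0 := by simp [zd]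

theorem zd_zero : zd (0 : ℤ × ℤ) 0 = 0 := by simp [zd]

variable {out : ℤ × ℤ → Prop} {ν : ℂ} {ρ : ℕ} {ω : ℤ × ℤ → ℝ}

theorem lapG_eq {f : ℤ × ℤ → ℝ} {x : ℤ × ℤ} (hx : ¬ out x)
    (h0 : ∀ a, out (x + st4 a) → f (x + st4 a) = 0) :
    lapG 1 (prO out) f x = ∑ a, (f (x + st4 a) - f x) := by
  refine sum_congr rfl fun a _ => ?_
  split_ifs with h
  · rfl
  · rw [h0 a (by_contra fun h' => h ⟨hx, h'⟩)]
    ring

/-- A barrier is a positive harmonic function. -/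
theorem pos_of_bar (h : IsBar 1 (prO out) ν ρ ω) {y : ℤ × ℤ} {t : ℕ} (hy : zd y 0 + t ≤ ρ) :
    Pos out ν y t ω := by
  have z : ∀ x, zd x 0 ≤ ρ → out x → ω x = 0 := fun x hx ho => by
    have h1 := h.harm x hx
    have h2 : lapG 1 (prO out) ω x = ∑ _a : Fin 4, -1 * ω x :=
      sum_congr rfl fun a _ => if_neg fun h' => h'.1 ho
    rw [h2, Fin.sum_univ_four] at h1
    linarith
  refine ⟨⟨fun x hx => z x ?_, fun x hx ho => ?_⟩, fun x => (h.rng x).1, h.mono⟩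
  · have := GeoA.zd_tri x y 0
    omega
  · have h1 := GeoA.zd_tri x y 0
    rw [← lapG_eq ho fun a => z _ (by have := B1a1.zd_step x a; omega)]
    exact h.harm x (by omega)

/-- A bounded harmonic function is bounded by the barrier. -/
theorem abs_le_bar (h : IsBar 1 (prO out) ν ρ ω) {g : ℤ × ℤ → ℝ} (hg : Har out 0 (1000 * ρ) g)
    {S : ℝ} (hS : 0 ≤ S) (hb : ∀ v, zd v 0 ≤ 1000 * ρ → |g v| ≤ S) (v : ℤ × ℤ)
    (hv : zd v 0 ≤ ρ) : |g v| ≤ S * ω v := by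
  have key : ∀ σ : ℝ, |σ| = 1 → σ * g v ≤ S * ω v := fun σ hσ => by
    refine h.cmp (fun x => σ * g x) S hS (fun x hx => ?_) (fun x hx hp => ?_) v hv
    · refine (le_abs_self _).trans ?_
      rw [abs_mul, hσ, one_mul]
      exact hb x hx
    · have ho : ¬ out x := fun ho => by
        rw [hg.zero x (by omega) ho, mul_zero] at hp
        exact lt_irrefl _ hp
      rw [lapG_eq ho fun a ha => by
        rw [hg.zero _ (by have := B1a1.zd_step x a; omega) ha, mul_zero]]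
      have h1 := hg.harm x hx ho
      simp only [Fin.sum_univ_four] at h1 ⊢
      exact le_of_eq (by linear_combination -σ * h1)
  have h1 := key 1 abs_one
  have h2 := key (-1) (by simp)
  exact abs_le.2 ⟨by linarith, by linarith⟩

theorem har_shift {g : ℤ × ℤ → ℝ} (hg : Har out 0 ρ g) {y : ℤ × ℤ} {t : ℕ}
    (hy : zd y 0 + t ≤ ρ) : Har out y t g :=
  ⟨fun x hx => hg.zero x (by have := GeoA.zd_tri x y 0; omega),
    fun x hx => hg.harm x (by have := GeoA.zd_tri x y 0; omega)⟩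

/-- The pair in the model. -/
theorem pair_model {pr pr' : ℤ × ℤ → Fin 4 → Prop} {out' : ℤ × ℤ → Prop} {u w : ℤ × ℤ → ℝ}
    (h : IsPair ρ u w pr' out') (hM : Md pr out ν)
    (he : ∀ v, zd v 0 ≤ ρ + 1 → (∀ a, pr' v a ↔ pr v a) ∧ (out' v ↔ out v)) :
    IsPair ρ u w pr out := by
  refine ⟨h.le, fun v hv ho => h.zero v hv ((he v hv).2.2 ho), hM.rem, hM.mn.symm,
    fun v hv => ?_, fun v hv ho => h.sup v hv fun h' => ho ((he v (by omega)).2.1 h')⟩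
  refine (h.sub v hv).trans_eq (sum_congr rfl fun a _ => ?_)
  unfold GG
  by_cases ha : pr v a
  · rw [if_pos ha, if_pos (((he v (by omega)).1 a).2 ha)]
  · rw [if_neg ha, if_neg fun h' => ha (((he v (by omega)).1 a).1 h')]

/-- A homogeneous solution with its pair. -/
structure Cx {M : ℕ} [NeZero M] (R : Reg M) (B : Gauge M) (b : Tor M) (s₁ : ℕ)
    (φ : Tor M × Fin 4 → ℝ) (C₀ S : ℝ) (u w : ℤ × ℤ → ℝ) : Prop where
  sign : IsSign B
  hM : 2 * s₁ + 13 ≤ M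
  flat : Flat B b (s₁ + 4)
  hom : Hom (R.pw * B) b (s₁ + 4) φ
  S0 : 0 ≤ S
  pair : IsPair s₁ u w (R.pr b) (R.out b)
  eq : ∀ v k, zd v 0 ≤ s₁ → u v - w (v - cn k) = chi φ (R.vx b v k) k ^ 2
  le : ∀ v, zd v 0 + 1 ≤ s₁ → ∑ k, chi φ (R.vx b v k) k ^ 2 ≤ C₀ * ∑ a, |GG u (R.pr b) v a|
  bd : ∀ v, 2 * zd v 0 ≤ s₁ → |u v| ≤ S ∧ |w v| ≤ S

open HomDec An2 in
/-- The pair exists. -/
theorem exists_cx : ∃ C₀ C : ℝ, 1 ≤ C₀ ∧ 1 ≤ C ∧ ∀ (N M : ℕ) [NeZero M] (R : Reg M) (B : Gauge M)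
    (r : ℕ) (b : Tor M), IsSign B → Rgh R.In N r → b ∉ R.In → ∀ s₁ ρ : ℕ, 8 ≤ s₁ → s₁ + 2 ≤ ρ →
    N * (s₁ + 3) ≤ ρ → ρ ≤ r → N * ((N + 1) * (s₁ + 1)) ≤ r → 4 * s₁ ≤ r → 4 * r ≤ M →
    Flat B b (ρ + 2) → ∀ φ, Hom (R.pw * B) b (ρ + 2) φ → ∀ F : ℝ,
      l2sq (ball b (s₁ + 1)) φ ≤ F → ∃ u w, Cx R B b s₁ φ C₀ (C * F / s₁) u w := by
  obtain ⟨C₁, hC₁, H₁⟩ := exists_pair
  obtain ⟨C₂, hC₂, H₂⟩ := chi_cmp
  obtain ⟨C₃, hC₃, H₃⟩ := pair_sup
  refine ⟨C₁, C₃ * C₂, hC₁, one_le_mul_of_one_le_of_one_le hC₃ hC₂, ?_⟩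
  intro N M _ R B r b hB hR hb s₁ ρ h8 hρ hN hr hN' h4 hM hF φ hφ F hA
  obtain ⟨u, w, hp, he, hl⟩ := H₁ M R B hB b s₁ ρ hρ (by omega) hF
    ((hR.conn b (s₁ + 2) (hN.trans hr)).mono' le_rfl hN) φ hφ
  have hF0 : 0 ≤ F := (l2sq_nonneg _ _).trans hA
  have hpos : (0 : ℝ) < s₁ := by exact_mod_cast (by omega : 0 < s₁)
  have hmass : ∑ x ∈ box s₁, ∑ k, (u x - w (x - cn k)) ≤ C₂ * F := by
    rw [sum_congr rfl fun x hx => sum_congr rfl fun k _ => he x k (mem_box.1 hx)]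
    refine (sum_box_le R b (by omega) (fun y k => chi φ y k ^ 2) fun _ _ => sq_nonneg _).trans
      (le_trans ?_ (mul_le_mul_of_nonneg_left hA (by linarith)))
    rw [l2sq, mul_sum]
    exact sum_le_sum fun y _ => (H₂ M φ y).2
  refine ⟨u, w, hB, by omega, W.flat_mono hF (by omega), fun t ht => hφ t (by omega),
    by positivity, hp, he, hl, fun v hv => ?_⟩
  rw [le_div_iff₀ hpos, le_div_iff₀ hpos, mul_assoc]
  refine H₃ s₁ u w _ _ hp h8 (fun t _ h2 => ?_) v hv _ hmass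
  obtain ⟨f, hf, hf'⟩ := contour hR hb (s := t)
    (le_trans (Nat.mul_le_mul_left _ (Nat.mul_le_mul_left _ (by omega))) hN') (by omega)
  obtain ⟨x, hx, rfl⟩ := exists_fc R b f
  exact ⟨x, 0, hx.trans hf', by rw [cn_zero, sub_zero]; exact out_of hf⟩

theorem vx_fc {M : ℕ} (R : Reg M) (b : Tor M) (v : ℤ × ℤ) : R.vx b v 0 = An2.fc R b v := by
  rw [B2b2.vx_zero, An2.fc]
  split_ifs
  · rw [HomDec.prj_neg, sub_eq_add_neg]
  · rfl

open B2b2 in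
/-- The interior estimates at a deep site. -/
theorem cx_int (C₀ : ℝ) (hC₀ : 1 ≤ C₀) : ∃ C : ℝ, 1 ≤ C ∧ ∀ (M : ℕ) [NeZero M] (R : Reg M)
    (B : Gauge M) (b : Tor M) (s₁ : ℕ) (φ : Tor M × Fin 4 → ℝ) (S : ℝ) (u w : ℤ × ℤ → ℝ),
    Cx R B b s₁ φ C₀ S u w → ∀ (c : ℤ × ℤ) (r : ℕ) (S' : ℝ), 16 ≤ r → zd c 0 + 2 * r + 3 ≤ s₁ →
    In (R.out b) (r + 5) c → (∀ v, zd v c ≤ 2 * r + 3 → |u v| ≤ S') →
    u c - w c ≤ C * S' / r ∧ ∀ m : ℕ, 2 * (m + 1) ≤ r →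
      |u (c + m • cn 1) - u c - m * (tc * (aL (R.vx b c 0) 1 φ ^ 2 - aL (R.vx b c 0) 0 φ ^ 2))| ≤
        m * (C * S' * (m + 1) / r ^ 2) ∧
      |u (c + m • cn 3) - u c - m * (2 * tc * aL (R.vx b c 0) 0 φ * aL (R.vx b c 0) 1 φ)| ≤
        m * (C * S' * (m + 1) / r ^ 2) := by
  obtain ⟨C₁, hC₁, h₁⟩ := loc_l2
  obtain ⟨C₂, hC₂, h₂⟩ := int_est
  have p1 := one_le_mul_of_one_le_of_one_le hC₁ hC₀
  refine ⟨C₂ * (2 * (C₁ * C₀)), by nlinarith,
    fun M _ R B b s₁ φ S u w h c r S' hr h1 h2 h3 => ?_⟩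
  have r1 : (16 : ℝ) ≤ r := by exact_mod_cast hr
  have hx := tdist_vx_zero (R := R) (z := b) c
  have hM := h.hM
  have S0 : 0 ≤ S' := (abs_nonneg _).trans (h3 c (by simp [zd]))
  have h4 := h₁ M R b s₁ φ u w C₀ (by linarith) h.pair h.le c r S' h1
    fun v hv => h3 _ (by rwa [zd_add'])
  obtain ⟨k1, k2⟩ := h₂ M R B h.sign (R.vx b c 0) r hr (by omega)
    (fun f hf => h.flat f (by have := tdist_triangle f (R.vx b c 0) b; omega))
    (fun f hf => by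
      obtain ⟨d, hd, rfl⟩ := exists_vx hf
      by_contra hn
      rw [vx_fc] at hn
      exact h2 _ (by rwa [zd_add']) (An2.out_of hn)) φ
    (fun s hs => h.hom s (by have := tdist_triangle s.1 (R.vx b c 0) b; omega))
    (2 * (C₁ * C₀) * S' / r) (h4.trans (by
      have h5 : C₁ * C₀ * (r + 1) ≤ C₁ * C₀ * (2 * r) :=
        mul_le_mul_of_nonneg_left (by linarith) (by linarith)
      refine (mul_le_mul_of_nonneg_right h5 S0).trans_eq ?_
      field_simp))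
  refine ⟨?_, fun m hm => ?_⟩
  · have a1 := h.eq c 0 (by omega)
    rw [show cn 0 = 0 from rfl, sub_zero] at a1
    rw [a1]
    exact (k1 _ 0 (by rw [tdist_self]; omega)).trans_eq (by ring)
  · have step : ∀ (k : Fin 4) (g : ℝ), (∀ y y', tdist y (R.vx b c 0) ≤ m + 1 →
        tdist y' (R.vx b c 0) ≤ m + 1 → |chi φ y k ^ 2 - chi φ y' 0 ^ 2 - g| ≤
          C₂ * (2 * (C₁ * C₀) * S' / r) * (m + 1 : ℕ) / r) →
        |u (c + m • cn k) - u c - m * g| ≤ m * (C₂ * (2 * (C₁ * C₀)) * S' * (m + 1) / r ^ 2) := by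
      intro k g hg
      have z1 : ∀ i ≤ m, zd (c + i • cn k) 0 ≤ s₁ := fun i hi => by
        have a1 := zd_add c (i • cn k)
        have a2 := zd_smul i k
        omega
      have a := tele (f := fun i => u (c + i • cn k)) (g := g)
        (δ := C₂ * (2 * (C₁ * C₀)) * S' * (m + 1) / r ^ 2) m fun i hi => by
          have b1 := h.eq (c + (i + 1) • cn k) k (z1 _ hi)
          have b2 := h.eq (c + i • cn k) 0 (z1 _ hi.le)
          rw [succ_nsmul, ← add_assoc, add_sub_cancel_right, add_assoc, ← succ_nsmul] at b1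
          rw [show cn 0 = 0 from rfl, sub_zero] at b2
          refine le_of_eq_of_le (congrArg _ (by linarith)) ((hg _ _
            ((tdist_vx_k R b c ((i + 1) • cn k) k).trans ?_)
            ((tdist_vx_k R b c (i • cn k) 0).trans ?_)).trans_eq ?_)
          · exact Nat.add_le_add_right ((zd_smul _ k).trans hi) 1
          · exact Nat.add_le_add_right ((zd_smul _ k).trans hi.le) 1
          · push_cast
            field_simp
      simpa only [zero_smul, add_zero] using a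
    exact ⟨step 1 _ fun y y' hy hy' => (k2 (m + 1) (by omega) hm y y' hy hy').1,
      step 3 _ fun y y' hy hy' => (k2 (m + 1) (by omega) hm y y' hy hy').2⟩

/-- The harmonic approximation. -/
theorem cx_app (hA : AppL) (C₀ : ℝ) (hC₀ : 1 ≤ C₀) (e : ℝ) (he : 0 < e) : ∃ ρ₀ : ℕ,
    ∀ (M : ℕ) [NeZero M] (R : Reg M) (B : Gauge M) (b : Tor M) (ρ : ℕ) (φ : Tor M × Fin 4 → ℝ)
    (S : ℝ) (u w : ℤ × ℤ → ℝ), Cx R B b (4 * ρ) φ C₀ S u w → ρ₀ ≤ ρ → ∀ pr out ν, Md pr out ν →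
    (∀ v, zd v 0 ≤ 4 * ρ → (∀ a, R.pr b v a ↔ pr v a) ∧ (R.out b v ↔ out v)) →
    ∃ g, Har out 0 ρ g ∧ ∀ v, zd v 0 ≤ ρ → |g v| ≤ S ∧ |u v - g v| ≤ e * S := by
  obtain ⟨C, β, hC, hβ, hA⟩ := hA
  obtain ⟨C₁, hC₁, h₁⟩ := cx_int C₀ hC₀
  obtain ⟨r, hr, hr'⟩ : ∃ r : ℕ, 16 ≤ r ∧ 2 * C₁ / e ≤ r :=
    ⟨max 16 _, le_max_left _ _, (Nat.le_ceil _).trans (Nat.cast_le.2 (le_max_right _ _))⟩
  have r0 : (0 : ℝ) < r := by exact_mod_cast (by omega : 0 < r)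
  obtain ⟨τ, τ0, hτ⟩ : ∃ τ : ℝ, 0 < τ ∧ τ ^ β = e / (2 * C) :=
    ⟨(e / (2 * C)) ^ β⁻¹, by positivity, Real.rpow_inv_rpow (by positivity) hβ.ne'⟩
  obtain ⟨ρ₀, hρ₀⟩ := exists_nat_ge (((r + 5 : ℕ) : ℝ) / τ)
  refine ⟨ρ₀ + (2 * r + 5), fun M _ R B b ρ φ S u w h hρ pr out ν hM hE => ?_⟩
  have S0 := h.S0
  obtain ⟨g, g1, g2⟩ := hA pr out ν hM ρ (r + 5) u w S (C₁ * S / r)
    (pair_model (h.pair.mono (by omega)) hM fun v hv => hE v (by omega)) (by omega) (by omega)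
    (by positivity) (fun v hv => h.bd v (by omega)) fun v hv hI =>
      (h₁ M R B b _ φ S u w h v r S hr (by omega)
        (fun x hx ho => hI x hx ((hE x (by have := GeoA.zd_tri x v 0; omega)).2.1 ho))
        fun x hx => (h.bd x (by have := GeoA.zd_tri x v 0; omega)).1).1
  refine ⟨g, g1, fun v hv => ⟨(g2 v hv).1, (g2 v hv).2.trans ?_⟩⟩
  have a1 : C₁ * S / r ≤ e / 2 * S := by
    rw [div_le_iff₀ he] at hr'
    rw [div_le_iff₀ r0]
    nlinarith [mul_le_mul_of_nonneg_right hr' S0]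
  have a2 : (((r + 5 : ℕ) : ℝ) / ρ) ^ β ≤ e / (2 * C) := by
    have ρ1 : (ρ₀ : ℝ) ≤ ρ := by exact_mod_cast (by omega : ρ₀ ≤ ρ)
    have ρ2 : (0 : ℝ) < ρ := by exact_mod_cast (by omega : 0 < ρ)
    rw [← hτ]
    refine Real.rpow_le_rpow (by positivity) ?_ hβ.le
    rw [div_le_iff₀ τ0] at hρ₀
    rw [div_le_iff₀ ρ2]
    nlinarith
  have a3 := mul_le_mul_of_nonneg_left a2 (show 0 ≤ C * S by positivity)
  have a4 : C * S * (e / (2 * C)) = e / 2 * S := by field_simp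
  linarith

end Vale.Agent.P144L.R
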