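import Vale.Agent.P144L.R.Pre

/-!
Lipschitz boundaries, rank one: the estimate at one point.
-/

namespace Vale.Agent.P144L.R

open Finset Matrix Vale.Agent.P144Z

theorem polar (x y : ℝ) : ∃ (n : ℂ) (D : ℝ), ‖n‖ = 1 ∧ 0 ≤ D ∧ x = D * n.re ∧ y = D * n.im ∧
    |x| + |y| ≤ 2 * D := by
  have h1 : |x| ≤ ‖(⟨x, y⟩ : ℂ)‖ := Complex.abs_re_le_norm ⟨x, y⟩
  have h2 : |y| ≤ ‖(⟨x, y⟩ : ℂ)‖ := Complex.abs_im_le_norm ⟨x, y⟩
  refine ⟨Complex.exp (Complex.arg ⟨x, y⟩ * Complex.I), ‖(⟨x, y⟩ : ℂ)‖,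
    Complex.norm_exp_ofReal_mul_I _, norm_nonneg _, ?_, ?_, by linarith⟩
  · rw [Complex.exp_ofReal_mul_I_re, Complex.norm_mul_cos_arg]
  · rw [Complex.exp_ofReal_mul_I_im, Complex.norm_mul_sin_arg]

theorem slope {u₁ u₀ ω₁ ω₀ g δ lam D ν E : ℝ} {m : ℕ} (hm : 1 ≤ m)
    (h1 : |u₁ - u₀ - m * g| ≤ m * δ) (h2 : |u₁ - lam * ω₁| ≤ E) (h3 : |u₀ - lam * ω₀| ≤ E)
    (h4 : ω₁ - ω₀ = D * ν) : |g - lam * D / m * ν| ≤ δ + 2 * E / m := by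
  have m0 : (0 : ℝ) < m := by exact_mod_cast hm
  refine le_of_mul_le_mul_left ?_ m0
  have e1 : (m : ℝ) * |g - lam * D / m * ν| = |m * g - lam * (ω₁ - ω₀)| := by
    rw [← abs_of_pos m0, ← abs_mul, abs_of_pos m0, h4]
    congr 1
    field_simp
  have e2 : (m : ℝ) * (δ + 2 * E / m) = m * δ + 2 * E := by field_simp
  rw [e1, e2, abs_le]
  rw [abs_le] at h1 h2 h3
  constructor <;> linarith

open B2b2 in
/-- Rank one at one point. -/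
theorem point (C₀ : ℝ) (hC₀ : 1 ≤ C₀) : ∃ C : ℝ, 1 ≤ C ∧ ∀ (M : ℕ) [NeZero M] (R : Reg M)
    (B : Gauge M) (b : Tor M) (s₁ : ℕ) (y c : ℤ × ℤ) (s m r σ ρ : ℕ) (ω : ℤ × ℤ → ℝ)
    (κ W E G : ℝ), 0 ≤ κ → 0 ≤ E → 0 ≤ G → 16 ≤ r → 2 * (m + 1) ≤ r → 1 ≤ m → 3 ≤ s → 3 * s ≤ σ →
    In (R.out b) (r + 5) c → zd c y + 2 * r + 3 ≤ σ → zd y 0 + σ ≤ s₁ → (∀ v, 0 ≤ ω v) →
    (∀ v, zd v y ≤ σ → ω v ≤ W) →
    (∀ v, zd v y ≤ 3 * s →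
      ω v * m ≤ G * s * (|ω (c + m • cn 1) - ω c| + |ω (c + m • cn 3) - ω c|)) →
    (∀ φ, Hom (R.pw * B) (R.vx b y 0) ρ φ → ∃ (u w : ℤ × ℤ → ℝ) (lam : ℝ),
      Cx R B b s₁ φ C₀ (κ * l2sq (ball (R.vx b y 0) ρ) φ) u w ∧
      |lam| ≤ κ * l2sq (ball (R.vx b y 0) ρ) φ ∧
      ∀ v, zd v y ≤ σ → |u v - lam * ω v| ≤ E * (κ * l2sq (ball (R.vx b y 0) ρ) φ)) →
    HomR (R.pw * B) (R.vx b y 0) s ρ
      (C * (κ * ρ) * (G * (s * ((W + E) * (m + 1) / r ^ 2 + E / m)) + E)) := by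
  obtain ⟨C₁, hC₁, h₁⟩ := cx_int C₀ hC₀
  obtain ⟨C₂, hC₂, h₂⟩ := loc_l2
  have p1 := one_le_mul_of_one_le_of_one_le (one_le_mul_of_one_le_of_one_le hC₂ hC₀) hC₁
  refine ⟨1360 * (C₂ * C₀ * C₁), by linarith, fun M _ R B b s₁ y c s m r σ ρ ω κ W E G hκ hE hG
    hr hmr hm hs hσ hI hc hy ω0 hW hsl H => ?_⟩
  have m0 : (0 : ℝ) < m := by exact_mod_cast hm
  have s3 : (3 : ℝ) ≤ s := by exact_mod_cast hs
  have W0 : 0 ≤ W := (ω0 y).trans (hW y (by simp [zd]))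
  obtain ⟨n, D, hn, D0, d1, d3, hD⟩ := polar (ω (c + m • cn 1) - ω c) (ω (c + m • cn 3) - ω c)
  obtain ⟨p, q, e0, e1, e2⟩ := exists_half hn
  obtain ⟨μ, hμ⟩ : ∃ μ : (Tor M × Fin 4 → ℝ) → ℝ,
      ∀ φ, μ φ = κ * l2sq (ball (R.vx b y 0) ρ) φ := ⟨_, fun _ => rfl⟩
  have μ0 : ∀ φ, 0 ≤ μ φ := fun φ => by
    rw [hμ]
    exact mul_nonneg hκ (E3.l2sq_nonneg _ _)
  simp only [← hμ] at H
  obtain ⟨L₁, hL₁⟩ : ∃ L : (Tor M × Fin 4 → ℝ) →ₗ[ℝ] ℝ,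
      ∀ φ, L φ = p * aL (R.vx b c 0) 1 φ + q * aL (R.vx b c 0) 0 φ :=
    ⟨p • aL _ 1 + q • aL _ 0, fun _ => rfl⟩
  obtain ⟨L₂, hL₂⟩ : ∃ L : (Tor M × Fin 4 → ℝ) →ₗ[ℝ] ℝ,
      ∀ φ, L φ = q * aL (R.vx b c 0) 1 φ - p * aL (R.vx b c 0) 0 φ :=
    ⟨q • aL _ 1 - p • aL _ 0, fun _ => rfl⟩
  obtain ⟨X, hX⟩ : ∃ X : ℝ, X = (W + E) * (m + 1) / r ^ 2 + E / m := ⟨_, rfl⟩
  have X0 : 0 ≤ X := by rw [hX]; positivity
  rw [← hX]
  have zc : zd c 0 ≤ zd c y + zd y 0 := GeoA.zd_tri c y 0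
  have key : ∀ φ ∈ homS (R.pw * B) (R.vx b y 0) ρ, |L₁ φ * L₂ φ| ≤ 6 * C₁ * X * μ φ ∧
      L₁ φ ^ 2 + L₂ φ ^ 2 ≤ (3 * D / m + 24 * C₁ * X) * μ φ ∧
      l2sq (ball (R.vx b y 0) s) φ ≤ C₂ * C₀ * (s + 1) *
        (2 * (G * s) * (L₁ φ ^ 2 + L₂ φ ^ 2 + 4 * C₁ * X * μ φ) + E * μ φ) := fun φ hφ => by
    obtain ⟨u, w, lam, h, l1, l2⟩ := H φ hφ
    have S0 := μ0 φ
    have ub : ∀ v, zd v y ≤ σ → |u v| ≤ |lam| * ω v + E * μ φ := fun v hv => by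
      have a1 := abs_sub_abs_le_abs_sub (u v) (lam * ω v)
      rw [abs_mul, abs_of_nonneg (ω0 v)] at a1
      linarith [l2 v hv]
    obtain ⟨k1, k3⟩ := (h₁ M R B b s₁ φ _ u w h c r ((W + E) * μ φ) hr (by omega) hI
      fun v hv => by
        have a1 : zd v y ≤ σ := by have := GeoA.zd_tri v c y; omega
        have a2 := mul_le_mul l1 (hW v a1) (ω0 v) S0
        linarith [ub v a1]).2 m hmr
    have z0 : zd c y ≤ σ := by omega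
    have z1 : ∀ k, zd (c + m • cn k) y ≤ σ := fun k => by
      have a1 := GeoA.zd_tri (c + m • cn k) c y
      have a2 := zd_smul m k
      rw [zd_add'] at a1
      omega
    have ee : C₁ * ((W + E) * μ φ) * (m + 1) / r ^ 2 + 2 * (E * μ φ) / m ≤ 2 * C₁ * X * μ φ := by
      have a1 : 0 ≤ C₁ * ((W + E) * (m + 1) / r ^ 2) * μ φ := by positivity
      have a2 : E / m * μ φ ≤ C₁ * (E / m * μ φ) := le_mul_of_one_le_left (by positivity) hC₁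
      have a3 : C₁ * ((W + E) * μ φ) * (m + 1) / r ^ 2 + 2 * (E * μ φ) / m =
          C₁ * ((W + E) * (m + 1) / r ^ 2) * μ φ + 2 * (E / m * μ φ) := by ring
      rw [a3, hX]
      linarith
    have l3 := (slope hm k1 (l2 _ (z1 1)) (l2 _ z0) d1).trans ee
    have l4 := (slope hm k3 (l2 _ (z1 3)) (l2 _ z0) d3).trans ee
    rw [e1] at l3
    rw [e2] at l4
    obtain ⟨b1, b2, b3⟩ := alg e0 l3 l4
    rw [← hL₁, ← hL₂] at b1 b2 b3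
    have b4 : |lam * D / m| = |lam| * (D / m) := by
      rw [mul_div_assoc, abs_mul, abs_of_nonneg (by positivity : 0 ≤ D / m)]
    rw [b4] at b2 b3
    refine ⟨by linarith, ?_, h₂ M R b s₁ φ u w C₀ (by linarith) h.pair h.le y s _ (by omega)
      fun v hv => ?_⟩
    · have a1 := mul_le_mul_of_nonneg_right l1 (by positivity : 0 ≤ D / m)
      have a2 : (3 * D / m + 24 * C₁ * X) * μ φ = 3 * (μ φ * (D / m)) + 24 * C₁ * X * μ φ := by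
        ring
      linarith
    · have a1 : zd (y + v) y ≤ 3 * s := by rw [zd_add']; omega
      have a2 : ω (y + v) ≤ 2 * (G * s) * (D / m) := by
        rw [← mul_div_assoc, le_div_iff₀ m0]
        exact (hsl _ a1).trans ((mul_le_mul_of_nonneg_left hD (by positivity)).trans_eq (by ring))
      have a3 := mul_le_mul_of_nonneg_left a2 (abs_nonneg lam)
      have a4 := mul_le_mul_of_nonneg_left b3 (by positivity : 0 ≤ 2 * (G * s))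
      linarith [ub _ (a1.trans hσ)]
  obtain ⟨u, hu, hk⟩ := rank_one (e := 6 * C₁ * X) (by positivity) μ0 (fun φ ψ => by
      have := mul_le_mul_of_nonneg_left (E4.l2sq_add_le (ball (R.vx b y 0) ρ) φ ψ) hκ
      rw [hμ, hμ, hμ]
      linarith)
    (fun t φ => by rw [hμ, hμ, E4.l2sq_smul]; ring) L₁ L₂ (fun φ hφ => (key φ hφ).2.1)
    fun φ hφ => (key φ hφ).1
  refine ⟨u, hu, fun φ hφ => (hk φ hφ).imp fun t ht => ?_⟩
  have a1 := (key _ (sub_mem hφ (Submodule.smul_mem _ t hu))).2.2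
  have S0 := μ0 φ
  have a2 := mul_le_mul_of_nonneg_left ht.1 (by positivity : 0 ≤ 4 * C₁ * X)
  have a3 := mul_le_mul_of_nonneg_left ht.1 hE
  have a4 : L₁ (φ - t • u) ^ 2 + L₂ (φ - t • u) ^ 2 + 4 * C₁ * X * μ (φ - t • u) ≤
      340 * (C₁ * X * μ φ) := by linarith [ht.2]
  have a5 := mul_le_mul_of_nonneg_left a4 (by positivity : 0 ≤ 2 * (G * s))
  have a6 : E * μ φ ≤ C₁ * (E * μ φ) := le_mul_of_one_le_left (by positivity) hC₁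
  have a7 : 0 ≤ C₁ * (E * μ φ) := by positivity
  have a8 : l2sq (ball (R.vx b y 0) s) (φ - t • u) ≤
      C₂ * C₀ * (2 * s) * (680 * C₁ * ((G * (s * X) + E) * μ φ)) :=
    a1.trans (mul_le_mul (mul_le_mul_of_nonneg_left (by linarith) (by positivity)) (by linarith)
      (by have := μ0 (φ - t • u); positivity) (by positivity))
  refine (mul_le_mul_of_nonneg_right a8 (Nat.cast_nonneg _)).trans_eq ?_
  rw [hμ]
  ring

end Vale.Agent.P144L.R
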